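import Vale.Agent.P343.H741.Iface
import Vale.Agent.P343.H744.Liveness

/-!
Every two-way nondeterministic automaton for the complement of one-way liveness on `h` points has
exponentially many (in `h`) states.
-/

namespace Vale.Agent.P343.H986

open Vale.Agent.P343 Vale.Agent.P343.Box Vale.Agent.P343.H741 Vale.Agent.P343.H744

/-- The lower bound for box automata. -/
def TowerStmt : Prop :=
  ∀ (j h : ℕ) (s0 f0 : Fin h), s0 ≠ f0 → 33 * j + 2 ≤ h → ∀ (Q : Type) [Finite Q]
    (M : BAut (Sym (Fin h)) Q), (∀ w, M.Acc w ↔ ¬ RLang s0 f0 w) → 2 ^ j ≤ 2 * Nat.card Q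

/-- The letter whose only edge is from `c` to `c`. -/
def only {h : ℕ} (c : Fin h) : Fin h → Fin h → Bool := fun x y => decide (x = c) && decide (y = c)

theorem live_only {h : ℕ} (a b : Fin h) (w : List (Sym (Fin h))) :
    Live ([only a] ++ w.map graph ++ [only b]) ↔ RLang a b w := by
  rw [live_iff]
  constructor
  · rintro ⟨x, y, hxy⟩
    obtain ⟨r, h3, z, h4, h5⟩ := (reach_append _ _ _ _ _).1 hxy
    obtain ⟨t, ⟨t', h6, h7⟩, h8⟩ := (reach_append _ _ _ _ _).1 h3
    simp only [only, Bool.and_eq_true, decide_eq_true_eq] at h4 h6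
    have h9 : t = t' := h7
    rw [h9, h6.2] at h8
    rw [h4.1] at h8
    exact (path_graph w _ _).1 h8
  · intro h3
    refine ⟨a, b, (reach_append _ _ _ _ _).2 ⟨b,
      (reach_append _ _ _ _ _).2 ⟨a, ⟨a, by simp [only], rfl⟩,
        (path_graph w _ _).2 h3⟩, ⟨b, by simp [only], rfl⟩⟩⟩

/-- The lower bound for the complement of liveness. -/
theorem live_compl (hU : AutStmt) (hT : TowerStmt) :
    ∀ (h j s : ℕ) (B : TwoNFA (Fin h → Fin h → Bool) (Fin s)), 33 * j + 80 ≤ h →
      (∀ w, B.Accepts w ↔ ¬ Live w) → 2 ^ j ≤ s := by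
  intro h j s B hh hB
  obtain ⟨M, hM⟩ := hU _ s B
  have hne : (⟨0, by omega⟩ : Fin h) ≠ ⟨1, by omega⟩ := by
    intro h
    have h1 := congrArg Fin.val h
    simp at h1
  let M1 : BAut (Sym (Fin h)) (Option (Fin s)) :=
    ⟨fun a => M.G (graph a), M.bl * M.G (only ⟨0, by omega⟩),
      M.G (only ⟨1, by omega⟩) * M.br, M.start, M.fin⟩
  have h1 := hT (j + 2) h ⟨0, by omega⟩ ⟨1, by omega⟩ hne (by omega) (Option (Fin s)) M1 (by
    intro w
    rw [← live_only, ← hB, ← hM]
    unfold BAut.Acc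
    rw [List.map_append, List.map_append, List.prod_append, List.prod_append, List.map_map]
    simp only [List.map_cons, List.map_nil, List.prod_cons, List.prod_nil, mul_one, mul_assoc, M1]
    exact Iff.rfl)
  rw [Nat.card_eq_fintype_card, Fintype.card_option, Fintype.card_fin, pow_add] at h1
  have h2 : 1 ≤ 2 ^ j := Nat.one_le_two_pow
  omega

end Vale.Agent.P343.H986
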